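import Vale.Agent.P256.Corner.Example

/-!
# P256: hand-in, hyperbolicity cones with isolated corners are spectrahedral shadows
-/

namespace Vale.Agent.Results.P256.IsolatedCorners

open Vale.Agent.P256

/-- Every pointed hyperbolicity cone with isolated corners is a spectrahedral shadow, and for every
`m` the cubic `s (u₀² - |u|²) - u₀³` is such a cone with a singular nonzero boundary point. -/
theorem result :
    (∀ (ι : Type) [Fintype ι] (d : ℕ) (p : MvPolynomial ι ℝ) (e : ι → ℝ),
      IsHyperbolic d p e → IsolatedCorners p e → IsShadow (hypCone p e)) ∧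
    (∀ m : ℕ, IsHyperbolic 3 (cornerCubic m) (cornerDir m) ∧
      IsolatedCorners (cornerCubic m) (cornerDir m) ∧
      ∃ x ∈ hypCone (cornerCubic m) (cornerDir m), x ≠ 0 ∧ IsSingularPt (cornerCubic m) x) := by
  refine ⟨?_, fun m => ⟨cornerCubic_hyperbolic m, cornerCubic_corners m, cornerCubic_singular m⟩⟩
  intro ι _ d p e hE hI
  exact isolatedCorners_isShadow hE hI

end Vale.Agent.Results.P256.IsolatedCorners
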