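import Vale.Agent.P256.Schur

/-!
# P256: hand-in, semidefinite lifts for Schur extensions of hyperbolicity cones
-/

namespace Vale.Agent.Results.P256.SchurExtensionLift

open Vale.Agent.P256

/-- If the hyperbolicity cone of `q` is a spectrahedral shadow and `Ψ` maps positive semidefinite
matrices into it, then `q (s C - Ψ (v vᵀ))` is hyperbolic and its cone is a spectrahedral
shadow. -/
theorem result : ∀ (ι : Type) [Fintype ι] (N d : ℕ) (q : MvPolynomial ι ℝ) (E : ι → ℝ)
    (P : ι → Matrix (Fin N) (Fin N) ℝ),
    IsHyperbolic d q E → IsShadow (hypCone q E) →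
    (∀ X : Matrix (Fin N) (Fin N) ℝ, X.PosSemidef → matMap P X ∈ hypCone q E) →
      IsHyperbolic (2 * d) (schurExt q P) (schurPt N E) ∧
        IsShadow (hypCone (schurExt q P) (schurPt N E)) := by
  intro ι _ N d q E P hE hS hP
  exact ⟨schurExt_hyperbolic hE hP, schur_shadow hE hS hP⟩

end Vale.Agent.Results.P256.SchurExtensionLift
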